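import Vale.Agent.P240.Defs

/-!
A cross-polytope cycle from non-commuting pairs that commute with one another.
-/

namespace Vale.Agent.P240

variable {G : Type} [Group G] [Finite G] {p : ℕ}

/-- A chain of elementary abelian subgroups is no longer than the rank. -/
lemma chain_length_le (hp : p.Prime) {r n : ℕ} {f : Fin n → Subgroup G} (hf : IsChainAp p f)
    (hr : ∀ E : Subgroup G, IsElemAb p E → Nat.card E ≤ p ^ r) : n ≤ r := by
  haveI := Fact.mk hp
  have hpow : ∀ k, ∃ a, Nat.card (f k) = p ^ a := fun k =>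
    IsPGroup.iff_card.1 fun g => ⟨1, Subtype.ext (by simpa using (hf.2 k).2.2 g.1 g.2)⟩
  choose a ha using hpow
  have hmono : ∀ i j, i < j → a i < a j := fun i j h => by
    have hlt : Nat.card (f i) < Nat.card (f j) :=
      Set.ncard_lt_ncard (SetLike.coe_ssubset_coe.2 (hf.1 h)) (Set.toFinite _)
    rw [ha, ha] at hlt
    exact (Nat.pow_lt_pow_iff_right hp.one_lt).1 hlt
  have hge : ∀ (i : ℕ) (hi : i < n), i + 1 ≤ a ⟨i, hi⟩ := by
    intro i
    induction i with
    | zero =>
      intro hi
      rcases Nat.eq_zero_or_pos (a ⟨0, hi⟩) with h0 | h0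
      · exact absurd (Subgroup.eq_bot_of_card_eq _ (by rw [ha, h0, pow_zero]))
          (hf.2 ⟨0, hi⟩).1
      · omega
    | succ i ih =>
      intro hi
      have h1 := ih (by omega)
      have h2 := hmono ⟨i, by omega⟩ ⟨i + 1, hi⟩ (by simp)
      omega
  rcases n with _ | n
  · exact Nat.zero_le _
  · have h1 := hge n (Nat.lt_succ_self n)
    have h2 := hr _ (hf.2 ⟨n, Nat.lt_succ_self n⟩)
    rw [ha] at h2
    have := (Nat.pow_le_pow_iff_right hp.one_lt).1 h2
    omega

section Cross

variable {m : ℕ} (z : Bool → Fin (m + 1) → G)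

/-- The subgroup spanned by the chosen elements with index in `s`. -/
def spanOf (ε : Fin (m + 1) → Bool) (s : Set (Fin (m + 1))) : Subgroup G :=
  Subgroup.closure ((fun i => z (ε i) i) '' s)

/-- The flag given by a choice and an ordering. -/
def flag (e : (Fin (m + 1) → Bool) × Equiv.Perm (Fin (m + 1))) :
    Fin (m + 1) → Subgroup G := fun k => spanOf z e.1 (e.2 '' {j | j ≤ k})

/-- The sign of a flag. -/
def flagSign (e : (Fin (m + 1) → Bool) × Equiv.Perm (Fin (m + 1))) : ℚ :=
  ((Equiv.Perm.sign e.2 : ℤ) : ℚ) * ∏ i, if e.1 i then (-1 : ℚ) else 1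

/-- The cross-polytope cycle. -/
noncomputable def crossCycle : (Fin (m + 1) → Subgroup G) →₀ ℚ :=
  ∑ e : (Fin (m + 1) → Bool) × Equiv.Perm (Fin (m + 1)),
    Finsupp.single (flag z e) (flagSign e)

variable (hcomm : ∀ i j, i ≠ j → ∀ a b, Commute (z a i) (z b j))
  (hne : ∀ i a, ¬ Commute (z a i) (z (!a) i))

include hcomm hne in
/-- An element with index outside `s` is not in the span. -/
lemma not_mem_span (ε : Fin (m + 1) → Bool) {s : Set (Fin (m + 1))} {i : Fin (m + 1)}
    (hi : i ∉ s) (a : Bool) : z a i ∉ spanOf z ε s := by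
  intro h
  have hle : spanOf z ε s ≤ Subgroup.centralizer {z (!a) i} :=
    (Subgroup.closure_le _).2 (by
      rintro _ ⟨j, hj, rfl⟩
      rw [SetLike.mem_coe, Subgroup.mem_centralizer_singleton_iff]
      exact (hcomm i j (fun e => hi (e ▸ hj)) (!a) (ε j)).symm.eq)
  exact hne i a (Subgroup.mem_centralizer_singleton_iff.1 (hle h))

include hcomm hne in
lemma span_commute (ε : Fin (m + 1) → Bool) (s : Set (Fin (m + 1))) :
    ∀ a ∈ spanOf z ε s, ∀ b ∈ spanOf z ε s, Commute a b := by
  have : IsMulCommutative (spanOf z ε s) := Subgroup.isMulCommutative_closure (by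
    rintro _ ⟨i, -, rfl⟩ _ ⟨j, -, rfl⟩
    rcases eq_or_ne i j with rfl | h
    · rfl
    · exact (hcomm i j h _ _).eq)
  intro a ha b hb
  exact congrArg Subtype.val (this.is_comm.comm ⟨a, ha⟩ ⟨b, hb⟩)

include hcomm hne in
lemma flag_isChain (hord : ∀ a i, z a i ^ p = 1)
    (e : (Fin (m + 1) → Bool) × Equiv.Perm (Fin (m + 1))) : IsChainAp p (flag z e) := by
  obtain ⟨ε, σ⟩ := e
  refine ⟨fun k l hkl => lt_of_le_of_ne
    (Subgroup.closure_mono (Set.image_mono (Set.image_mono fun j (hj : j ≤ k) =>
      (hj.trans hkl.le : j ≤ l)))) fun heq => ?_, fun k => ⟨?_, span_commute z hcomm hne ε _, ?_⟩⟩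
  · have hmem : z (ε (σ l)) (σ l) ∈ flag z (ε, σ) l :=
      Subgroup.subset_closure ⟨σ l, ⟨l, le_refl l, rfl⟩, rfl⟩
    rw [← heq] at hmem
    refine not_mem_span z hcomm hne ε ?_ _ hmem
    rintro ⟨j, hj, hjl⟩
    exact not_le_of_gt hkl (σ.injective hjl ▸ hj : l ≤ k)
  · intro hbot
    have hmem : z (ε (σ k)) (σ k) ∈ flag z (ε, σ) k :=
      Subgroup.subset_closure ⟨σ k, ⟨k, le_refl k, rfl⟩, rfl⟩
    rw [hbot, Subgroup.mem_bot] at hmem
    exact hne (σ k) (ε (σ k)) (hmem ▸ Commute.one_left _)
  · intro a ha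
    induction ha using Subgroup.closure_induction with
    | mem x hx => obtain ⟨i, -, rfl⟩ := hx; exact hord _ _
    | one => simp
    | mul x y hx hy hx' hy' =>
      rw [(span_commute z hcomm hne ε _ x hx y hy).mul_pow, hx', hy', one_mul]
    | inv x _ hx' => rw [inv_pow, hx', inv_one]

/-- The partner of a flag across the face missing level `k`. -/
def flip (k : Fin (m + 1)) (e : (Fin (m + 1) → Bool) × Equiv.Perm (Fin (m + 1))) :
    (Fin (m + 1) → Bool) × Equiv.Perm (Fin (m + 1)) :=
  if h : (k : ℕ) < m then (e.1, e.2 * Equiv.swap k ⟨k + 1, by omega⟩)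
  else (Function.update e.1 (e.2 k) (!e.1 (e.2 k)), e.2)

lemma flip_flip (k : Fin (m + 1)) (e) : flip k (flip k e) = e := by
  obtain ⟨ε, σ⟩ := e
  by_cases h : (k : ℕ) < m
  · simp [flip, h, mul_assoc]
  · simp [flip, h, Function.update_idem]

lemma flagSign_flip (k : Fin (m + 1)) (e) : flagSign (flip k e) = -flagSign e := by
  obtain ⟨ε, σ⟩ := e
  by_cases h : (k : ℕ) < m
  · have hne : k ≠ ⟨k + 1, by omega⟩ := fun e => by simp [Fin.ext_iff] at e
    simp [flip, h, flagSign, Equiv.Perm.sign_mul, Equiv.Perm.sign_swap hne]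
  · simp only [flip, h, dite_false, flagSign]
    rw [← Finset.mul_prod_erase _ _ (Finset.mem_univ (σ k)),
      ← Finset.mul_prod_erase _ _ (Finset.mem_univ (σ k)),
      Finset.prod_congr rfl (s₂ := Finset.univ.erase (σ k))
        (g := fun i => if ε i then (-1 : ℚ) else 1) fun i hi => by
          rw [Function.update_of_ne (Finset.mem_erase.1 hi).1]]
    rw [Function.update_self]
    rcases Bool.eq_false_or_eq_true (ε (σ k)) with hb | hb <;> simp [hb]

lemma flag_flip_face (k : Fin (m + 1)) (e) :
    flag z (flip k e) ∘ k.succAbove = flag z e ∘ k.succAbove := by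
  obtain ⟨ε, σ⟩ := e
  funext j
  have hjk : k.succAbove j ≠ k := Fin.succAbove_ne k j
  set l := k.succAbove j
  show flag z (flip k (ε, σ)) l = flag z (ε, σ) l
  by_cases h : (k : ℕ) < m
  · simp only [flip, h, dite_true, flag]
    congr 1
    rw [Equiv.Perm.coe_mul, Set.image_comp]
    congr 1
    ext i
    set k' : Fin (m + 1) := ⟨k + 1, by omega⟩
    have hl : (k : ℕ) ≠ l := fun e => hjk (Fin.ext e.symm)
    simp only [Set.mem_image_equiv, Equiv.symm_swap, Set.mem_ofPred_eq]
    by_cases hik : i = k
    · subst hik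
      simp only [Equiv.swap_apply_left, Fin.le_def, k']
      omega
    · by_cases hik' : i = k'
      · subst hik'
        simp only [Equiv.swap_apply_right, Fin.le_def, k']
        omega
      · rw [Equiv.swap_apply_of_ne_of_ne hik hik']
  · simp only [flip, h, dite_false, flag, spanOf]
    congr 1
    refine Set.image_congr fun i hi => ?_
    obtain ⟨j', hj', rfl⟩ := hi
    have : j' ≠ k := by
      rintro rfl
      have h1 := j'.2
      have h2 := l.2
      have h3 : (j' : ℕ) ≤ l := hj'
      exact hjk (Fin.ext (by omega))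
    rw [Function.update_of_ne (σ.injective.ne this)]

lemma boundary_crossCycle : boundary (crossCycle z) = 0 := by
  simp only [crossCycle, boundary, map_sum, Finsupp.linearCombination_single, Finset.smul_sum,
    Finsupp.smul_single, smul_eq_mul]
  rw [Finset.sum_comm]
  refine Finset.sum_eq_zero fun k _ => ?_
  refine Finset.sum_involution (fun e _ => flip k e) (fun e _ => ?_) (fun e _ hne' => ?_)
    (fun e _ => Finset.mem_univ _) (fun e _ => flip_flip k e)
  · rw [flag_flip_face, flagSign_flip, ← Finsupp.single_add]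
    simp
  · intro heq
    refine hne' ?_
    have h0 : flagSign e = 0 := by
      have := flagSign_flip k e
      rw [heq] at this
      linarith
    simp [h0]

include hcomm hne in
lemma crossCycle_ne_zero : crossCycle z ≠ 0 := by
  classical
  intro h0
  have h := congrArg (fun c : (Fin (m + 1) → Subgroup G) →₀ ℚ => c (flag z (fun _ => false, 1))) h0
  simp only [crossCycle, Finsupp.finsetSum_apply, Finsupp.coe_zero, Pi.zero_apply] at h
  rw [Finset.sum_eq_single (a := ((fun _ => false : Fin (m + 1) → Bool), (1 : Equiv.Perm (Fin (m + 1)))))] at h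
  · simp [flagSign] at h
  · rintro ⟨ε, σ⟩ - hne'
    refine Finsupp.single_eq_of_ne ?_
    intro heq
    refine hne' ?_
    have hmem : ∀ k, z (ε (σ k)) (σ k) ∈ spanOf z (fun _ => false) {j | j ≤ k} := fun k => by
      have hk : z (ε (σ k)) (σ k) ∈ flag z (ε, σ) k :=
        Subgroup.subset_closure ⟨σ k, ⟨k, le_refl k, rfl⟩, rfl⟩
      rw [← heq] at hk
      simpa [flag] using hk
    have hle : ∀ k, σ k ≤ k := fun k => by
      by_contra hk
      exact not_mem_span z hcomm hne _ (s := {j | j ≤ k}) hk _ (hmem k)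
    have hσ : σ = 1 := by
      refine Equiv.ext fun k => ?_
      induction k using WellFoundedLT.induction with
      | ind k ih =>
        rcases (hle k).lt_or_eq with hlt | heq'
        · exact absurd (σ.injective (ih _ hlt)) hlt.ne
        · simpa using heq'
    subst hσ
    refine Prod.ext (funext fun i => ?_) rfl
    by_contra hi
    have hi' : ε i = true := by simpa using hi
    have h1 := hmem i
    simp only [Equiv.Perm.one_apply, hi'] at h1
    exact hne i false (span_commute z hcomm hne _ _ _
      (Subgroup.subset_closure ⟨i, le_refl i, rfl⟩) _ h1)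
  · simp

end Cross

/-- Pairwise commuting non-commuting pairs of elements of order `p`, as many as the rank, give
nonzero top homology. -/
theorem topHomology_of_pairs (hp : p.Prime) (m : ℕ)
    (hr : ∀ E : Subgroup G, IsElemAb p E → Nat.card E ≤ p ^ (m + 1))
    (x y : Fin (m + 1) → G) (hx : ∀ i, x i ^ p = 1) (hy : ∀ i, y i ^ p = 1)
    (hxy : ∀ i, x i * y i ≠ y i * x i)
    (hcross : ∀ i j, i ≠ j → Commute (x i) (x j) ∧ Commute (y i) (y j) ∧ Commute (x i) (y j)) :
    TopHomologyNonzero p G m := by
  classical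
  refine ⟨fun n f hf => chain_length_le hp hf hr, ?_⟩
  set z : Bool → Fin (m + 1) → G := fun a i => if a then y i else x i
  have hcomm : ∀ i j, i ≠ j → ∀ a b, Commute (z a i) (z b j) := by
    intro i j h a b
    obtain ⟨h1, h2, h3⟩ := hcross i j h
    obtain ⟨-, -, h4⟩ := hcross j i h.symm
    cases a <;> cases b
    · exact h1
    · exact h3
    · exact h4.symm
    · exact h2
  have hne : ∀ i a, ¬ Commute (z a i) (z (!a) i) := by
    intro i a
    cases a
    · exact hxy i
    · exact fun h => hxy i h.symm.eq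
  have hord : ∀ a i, z a i ^ p = 1 := fun a i => by cases a <;> simp [z, hx, hy]
  refine ⟨crossCycle z, crossCycle_ne_zero z hcomm hne, fun f hf => ?_, boundary_crossCycle z⟩
  obtain ⟨e, -, he⟩ := Finset.mem_biUnion.1 (Finsupp.support_finset_sum hf)
  rw [Finset.mem_singleton.1 (Finsupp.support_single_subset he)]
  exact flag_isChain z hcomm hne hord e

end Vale.Agent.P240
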