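import Mathlib

/-!
Top-dimensional reduced homology of the poset of nonidentity elementary abelian `p`-subgroups.
-/

namespace Vale.Agent.P240

variable {G : Type} [Group G]

/-- A nonidentity elementary abelian `p`-subgroup. -/
def IsElemAb (p : ℕ) (E : Subgroup G) : Prop :=
  E ≠ ⊥ ∧ (∀ a ∈ E, ∀ b ∈ E, Commute a b) ∧ ∀ a ∈ E, a ^ p = 1

/-- A simplex of the order complex with `n` vertices. -/
def IsChainAp (p : ℕ) {n : ℕ} (f : Fin n → Subgroup G) : Prop :=
  StrictMono f ∧ ∀ k, IsElemAb p (f k)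

/-- The simplicial boundary; on one vertex it is the augmentation. -/
noncomputable def boundary {m : ℕ} :
    ((Fin (m + 1) → Subgroup G) →₀ ℚ) →ₗ[ℚ] ((Fin m → Subgroup G) →₀ ℚ) :=
  Finsupp.linearCombination ℚ fun f =>
    ∑ k : Fin (m + 1), Finsupp.single (f ∘ k.succAbove) ((-1 : ℚ) ^ (k : ℕ))

/-- The order complex of nonidentity elementary abelian `p`-subgroups has no simplex with more
than `m + 1` vertices and carries a nonzero reduced rational cycle in degree `m`; so its reduced
homology in degree `m` is nonzero. -/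
def TopHomologyNonzero (p : ℕ) (G : Type) [Group G] (m : ℕ) : Prop :=
  (∀ (n : ℕ) (f : Fin n → Subgroup G), IsChainAp p f → n ≤ m + 1) ∧
    ∃ c : (Fin (m + 1) → Subgroup G) →₀ ℚ,
      c ≠ 0 ∧ (∀ f ∈ c.support, IsChainAp p f) ∧ boundary c = 0

end Vale.Agent.P240
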